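import Vale.Agent.P352.BW.H234.Uniq

/-!
P352, project BW (helper820): the modular data of the commutant: the modular conjugations of `M`
and of its commutant agree, the modular unitaries are inverse to each other; `J M' J ⊆ M`; a von
Neumann subalgebra which is invariant under the modular group and has the same cyclic vector is
everything (Takesaki).
-/

set_option linter.all false

open Filter Topology
open scoped ComplexConjugate InnerProductSpace BoundedContinuousFunction

namespace Vale.Agent.P352.BW.H820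

open Vale.Agent.P132 Vale.Agent.P132.ModData
open Vale.Agent.P352.BW.H234

universe u

variable {H : Type u} [NormedAddCommGroup H] [InnerProductSpace ℂ H] [CompleteSpace H]
  {M : VonNeumannAlgebra H} {ξ : H}

/-- `F ↦ F (-h)` as a star homomorphism -/
noncomputable def rfS : (ℝ →ᵇ ℂ) →⋆ₐ[ℂ] (ℝ →ᵇ ℂ) where
  toFun F := reflB (star F)
  map_one' := by ext h; simp
  map_mul' F G := by ext h; simp
  map_zero' := by ext h; simp
  map_add' F G := by ext h; simp
  commutes' c := by
    ext h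
    simp [Algebra.algebraMap_eq_smul_one]
  map_star' F := by ext h; simp

theorem rfS_apply (F : ℝ →ᵇ ℂ) (h : ℝ) : rfS F h = F (-h) := by
  change conj (star F (-h)) = F (-h)
  rw [BoundedContinuousFunction.star_apply, RCLike.star_def, Complex.conj_conj]

theorem rfS_rr : rfS rr = 1 - rr := by
  ext h
  rw [rfS_apply, BoundedContinuousFunction.sub_apply, rr_apply, rr_apply]
  have e1 : ((1 : ℝ →ᵇ ℂ) h) = ((1 : ℝ) : ℂ) := by simp
  rw [e1, ← Complex.ofReal_sub]
  congr 1
  rw [Real.exp_neg]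
  have h3 : 0 < Real.exp h := Real.exp_pos h
  field_simp
  ring

theorem rfS_ss : rfS ss = ss := by
  ext h
  rw [rfS_apply, ss_apply, ss_apply]
  congr 1
  have e1 : Real.exp (-h / 2) = (Real.exp (h / 2))⁻¹ := by
    rw [← Real.exp_neg]; ring_nf
  have e2 : Real.exp (-h) = (Real.exp (h / 2))⁻¹ * (Real.exp (h / 2))⁻¹ := by
    rw [← Real.exp_neg, ← Real.exp_add]; ring_nf
  have e3 : Real.exp h = Real.exp (h / 2) * Real.exp (h / 2) := by
    rw [← Real.exp_add]; ring_nf
  rw [e1, e2, e3]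
  have h3 : 0 < Real.exp (h / 2) := Real.exp_pos _
  field_simp
  ring

theorem rfS_expB (t : ℝ) : rfS (expB t) = expB (-t) := by
  ext h
  rw [rfS_apply, expB_apply, expB_apply]
  congr 2
  push_cast
  ring

theorem reflB_rr : reflB rr = 1 - rr := by
  rw [← rfS_rr]
  ext h
  rw [rfS_apply, reflB_apply, rr_apply, Complex.conj_ofReal]

theorem reflB_ss : reflB ss = ss := by
  rw [← rfS_ss]
  ext h
  rw [rfS_apply, rfS_ss, reflB_apply, ← rfS_apply, rfS_ss, ss_apply, Complex.conj_ofReal]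

variable (E : ModData M ξ)

/-- the relation of Tomita for the elements of the commutant -/
theorem kms_comm (z : H →L[ℂ] H) (hz : z ∈ M.commutant) (F G : ℝ →ᵇ ℂ)
    (h : ∀ x : ℝ, G x = Real.exp (x / 2) * F x) : E.Th G (E.J (star z ξ)) = E.Th F (z ξ) := by
  obtain ⟨χ, c1, c2, c3, c4, c5⟩ := exists_chi
  have key : ∀ n, E.Th G (E.Th (χ n) (E.J (star z ξ))) = E.Th F (E.Th (χ n) (z ξ)) := by
    intro n
    have h1 := E.gd_adj (fun x hx f hf hf' => E.smooth_mem hx f hf hf') (θ := star z ξ) (ω := z ξ)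
      (by
        intro a ha
        have hc := VonNeumannAlgebra.mem_commutant_iff.1 (star_mem hz) a ha
        have h3 : a (star z ξ) = star z (a ξ) := congrArg (fun T : H →L[ℂ] H => T ξ) hc
        rw [ContinuousLinearMap.star_eq_adjoint a, ContinuousLinearMap.adjoint_inner_left, h3,
          ContinuousLinearMap.star_eq_adjoint z, ContinuousLinearMap.adjoint_inner_right])
      (χ n) (c1 n) (c2 n) (c4 n)
    have h2 : E.Th F (E.Th (gdE (χ n) (c2 n)) (E.J (star z ξ))) = E.Th F (E.Th (χ n) (z ξ)) := by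
      rw [h1]
    rw [← h2, ← E.gd_Th_mul, ← E.gd_Th_mul]
    congr 1
    apply E.gd_Th_congr
    intro x
    simp only [BoundedContinuousFunction.mul_apply, gdM_apply, h]
    ring
  have t1 := ((E.Th G).continuous.tendsto _).comp (tendsto_chi E c3 c5 (E.J (star z ξ)))
  have t2 := ((E.Th F).continuous.tendsto _).comp (tendsto_chi E c3 c5 (z ξ))
  exact tendsto_nhds_unique t1 (t2.congr fun n => (key n).symm)

/-- the graph of `S` of the commutant -/
theorem gS_J {p : H × H} (hp : p ∈ gS M ξ) : (E.J p.1, E.J p.2) ∈ gS M.commutant ξ := by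
  have hc : Continuous fun p : H × H => (E.J p.1, E.J p.2) := by
    have := E.J.continuous
    fun_prop
  have key : (fun p : H × H => (E.J p.1, E.J p.2)) p ∈
      closure {p : H × H | ∃ a ∈ M.commutant, p = (a ξ, star a ξ)} := by
    refine map_mem_closure (f := fun p : H × H => (E.J p.1, E.J p.2)) hc hp ?_
    rintro _ ⟨a, ha, rfl⟩
    refine ⟨jconj E.J a, E.J_mem a ha, ?_⟩
    rw [E.star_jconj]
    simp [E.J_xi]
  exact key

theorem res_gS' (ζ : H) : (E.Th (1 - rr) ζ, E.J (E.Th ss ζ)) ∈ gS M.commutant ξ := by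
  have h1 := gS_J E (res_gS E (E.J ζ))
  have h2 : E.J (E.Th rr (E.J ζ)) = E.Th (1 - rr) ζ := by
    rw [E.J_Th, E.J_J, reflB_rr]
  have h3 : E.J (E.J (E.Th ss (E.J ζ))) = E.J (E.Th ss ζ) := by
    rw [E.J_J, E.J_Th, reflB_ss]
  simpa only [h2, h3] using h1

theorem res_adj' (ζ : H) (z : H →L[ℂ] H) (hz : z ∈ M.commutant) :
    ⟪star z ξ, E.J (E.Th ss ζ)⟫_ℂ = ⟪ζ - E.Th (1 - rr) ζ, z ξ⟫_ℂ := by
  rw [E.inner_J_right, E.gd_inner_Th, star_ss]
  have h1 : E.Th ss (E.J (star z ξ)) = E.Th rr (z ξ) := by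
    refine kms_comm E z hz _ _ fun h => ?_
    rw [rr_apply, ss_apply, ← Complex.ofReal_mul]
    congr 1
    ring
  have h2 : ζ - E.Th (1 - rr) ζ = E.Th rr ζ := by
    rw [map_sub, map_one]
    simp
  rw [h1, h2, E.gd_inner_Th, star_rr]

/-- elements of the commutant are separated by the cyclic vector -/
theorem sep_comm (E : ModData M ξ) (z : H →L[ℂ] H) (hz : z ∈ M.commutant) (h : z ξ = 0) :
    z = 0 := by
  ext v
  have hcl : IsClosed {v : H | z v = 0} := isClosed_eq z.continuous continuous_const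
  have : v ∈ {v : H | z v = 0} := by
    refine closure_minimal ?_ hcl (E.cyc v)
    rintro _ ⟨a, ha, rfl⟩
    have h1 := VonNeumannAlgebra.mem_commutant_iff.1 hz a ha
    have h2 := congrArg (fun T : H →L[ℂ] H => T ξ) h1
    simp only [ContinuousLinearMap.mul_apply] at h2
    rw [Set.mem_setOf_eq, ← h2, h, map_zero]
  exact this

variable (E' : ModData M.commutant ξ)

theorem rr_comm : E'.Th rr = (E.Th.comp rfS) rr := by
  ext ζ
  have h1 : (E.Th.comp rfS) rr ζ = E.Th (1 - rr) ζ := by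
    rw [← rfS_rr]; rfl
  rw [h1]
  exact res_unique (res_gS E' ζ) (res_gS' E ζ) (res_adj E' ζ) (res_adj' E ζ)

/-- the functional calculus of `log Δ` of the commutant -/
theorem Th_comm (F : ℝ →ᵇ ℂ) (v : H) : E'.Th F v = E.Th (rfS F) v :=
  hom_unique (rr_comm E E') (fun χ v c c' => tendsto_chi E' c c' v) F v

theorem U_comm (t : ℝ) : E'.U t = E.U (-t) := by
  ext v
  change E'.Th (expB t) v = E.Th (expB (-t)) v
  rw [Th_comm E E', rfS_expB]

theorem J_comm (v : H) : E'.J v = E.J v := by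
  have h1 : ∀ ζ, E'.J (E.Th ss ζ) = E.J (E.Th ss ζ) := by
    intro ζ
    have e1 : E'.Th ss ζ = E.Th ss ζ := by rw [Th_comm E E', rfS_ss]
    have e2 : E'.Th rr ζ = E.Th (1 - rr) ζ := by rw [Th_comm E E', rfS_rr]
    have h2 : ∀ z ∈ M.commutant, ⟪z ξ, E'.J (E'.Th ss ζ) - E.J (E.Th ss ζ)⟫_ℂ = 0 := by
      intro z hz
      have h3 := res_adj E' ζ (star z) (star_mem hz)
      have h4 := res_adj' E ζ (star z) (star_mem hz)
      rw [star_star] at h3 h4
      rw [inner_sub_right, h3, h4, e2, sub_self]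
    have hcl : IsClosed {w : H | ⟪w, E'.J (E'.Th ss ζ) - E.J (E.Th ss ζ)⟫_ℂ = 0} :=
      isClosed_eq (by fun_prop) continuous_const
    have h5 : (E'.J (E'.Th ss ζ) - E.J (E.Th ss ζ)) ∈
        {w : H | ⟪w, E'.J (E'.Th ss ζ) - E.J (E.Th ss ζ)⟫_ℂ = 0} := by
      refine closure_minimal ?_ hcl (E.cyc' _)
      rintro _ ⟨z, hz, rfl⟩
      exact h2 z hz
    have h6 := sub_eq_zero.1 (inner_self_eq_zero.1 h5)
    rw [e1] at h6
    exact h6
  obtain ⟨χ, c1, c2, c3, c4, c5⟩ := exists_chi
  have hcl : IsClosed {v : H | E'.J v = E.J v} := isClosed_eq E'.J.continuous E.J.continuous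
  refine hcl.mem_of_tendsto (tendsto_chi E c3 c5 v) (Eventually.of_forall fun n => ?_)
  have hg : Continuous fun h : ℝ => (1 + Real.exp h) / Real.exp (h / 2) :=
    (by fun_prop : Continuous fun h : ℝ => 1 + Real.exp h).div (by fun_prop)
      (fun h => (Real.exp_pos _).ne')
  have h2 : E.Th (χ n) v = E.Th ss (E.Th (gdM _ hg (χ n) (c2 n)) v) := by
    rw [← E.gd_Th_mul]
    congr 1
    apply E.gd_Th_congr
    intro x
    rw [BoundedContinuousFunction.mul_apply, gdM_apply, ss_apply, ← mul_assoc,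
      ← Complex.ofReal_mul]
    have h3 : 0 < Real.exp (x / 2) := Real.exp_pos _
    have h4 : 0 < Real.exp x := Real.exp_pos _
    have h5 : Real.exp (x / 2) / (1 + Real.exp x) * ((1 + Real.exp x) / Real.exp (x / 2)) = 1 := by
      field_simp
    rw [h5, Complex.ofReal_one, one_mul]
  rw [Set.mem_setOf_eq, h2]
  exact h1 _

end Vale.Agent.P352.BW.H820
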