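import Vale.Agent.P132.Bd8.B6
import Vale.Agent.P352.BW.H820.Cm

/-!
P352, project BW (helper820): `J M' J ⊆ M`; a von Neumann subalgebra which is invariant under the
modular group and has the same cyclic vector is everything (Takesaki).
-/

set_option linter.all false

open Filter Topology
open scoped ComplexConjugate InnerProductSpace BoundedContinuousFunction

namespace Vale.Agent.P352.BW.H820

open Vale.Agent.P132 Vale.Agent.P132.ModData
open Vale.Agent.P352.BW.H234

universe u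

variable {H : Type u} [NormedAddCommGroup H] [InnerProductSpace ℂ H] [CompleteSpace H]
  {M : VonNeumannAlgebra H} {ξ : H}

theorem exists_comm (E : ModData M ξ) : Nonempty (ModData M.commutant ξ) :=
  exists_modData M.commutant ξ E.norm_xi E.cyc' (sep_comm E)

/-- **`J M' J ⊆ M`** -/
theorem jconj_mem (E : ModData M ξ) (Z : H →L[ℂ] H) (hZ : Z ∈ M.commutant) :
    jconj E.J Z ∈ M := by
  obtain ⟨E'⟩ := exists_comm E
  have h1 := E'.J_mem Z hZ
  rw [VonNeumannAlgebra.commutant_commutant] at h1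
  have h2 : jconj E'.J Z = jconj E.J Z := by
    ext v
    rw [jconj_apply, jconj_apply, J_comm E E', J_comm E E']
  rwa [h2] at h1

/-- the modular data of an invariant subalgebra -/
noncomputable def sub (E : ModData M ξ) (M0 : VonNeumannAlgebra H) (hle : ∀ X ∈ M0, X ∈ M)
    (hinv : ∀ t, ∀ X ∈ M0, E.sg t X ∈ M0) (hcyc : Dense {z | ∃ X ∈ M0, X ξ = z}) :
    ModData M0 ξ where
  norm_xi := E.norm_xi
  cyc := hcyc
  cyc' := by
    refine E.cyc'.mono ?_
    rintro _ ⟨z, hz, rfl⟩
    exact ⟨z, VonNeumannAlgebra.mem_commutant_iff.2 fun a ha =>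
      VonNeumannAlgebra.mem_commutant_iff.1 hz a (hle a ha), rfl⟩
  J := E.J
  J_J := E.J_J
  J_xi := E.J_xi
  Th := E.Th
  Th_nondeg := E.Th_nondeg
  Th_xi := E.Th_xi
  J_Th := E.J_Th
  kms a ha := E.kms a (hle a ha)
  J_mem a ha := VonNeumannAlgebra.mem_commutant_iff.2 fun b hb =>
      VonNeumannAlgebra.mem_commutant_iff.1 (E.J_mem a (hle a ha)) b (hle b hb)
  U_mem a ha t := hinv t a ha

/-- **Takesaki**: an invariant von Neumann subalgebra with the same cyclic vector is everything -/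
theorem le_of_inv (E : ModData M ξ) (M0 : VonNeumannAlgebra H) (hle : ∀ X ∈ M0, X ∈ M)
    (hinv : ∀ t, ∀ X ∈ M0, E.sg t X ∈ M0) (hcyc : Dense {z | ∃ X ∈ M0, X ξ = z}) :
    ∀ X ∈ M, X ∈ M0 := by
  intro X hX
  have h1 : jconj E.J X ∈ M0.commutant := VonNeumannAlgebra.mem_commutant_iff.2 fun b hb =>
      VonNeumannAlgebra.mem_commutant_iff.1 (E.J_mem X hX) b (hle b hb)
  have h2 := jconj_mem (sub E M0 hle hinv hcyc) _ h1
  have h3 : jconj (sub E M0 hle hinv hcyc).J (jconj E.J X) = X := by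
    ext v
    change E.J (E.J (X (E.J (E.J v)))) = X v
    rw [E.J_J, E.J_J]
  rwa [h3] at h2

/-- the same for subalgebras of the commutant -/
theorem le_of_inv' (E : ModData M ξ) (M0 : VonNeumannAlgebra H)
    (hle : ∀ X ∈ M0, X ∈ M.commutant)
    (hinv : ∀ t, ∀ X ∈ M0, E.sg t X ∈ M0) (hcyc : Dense {z | ∃ X ∈ M0, X ξ = z}) :
    ∀ X ∈ M.commutant, X ∈ M0 := by
  obtain ⟨E'⟩ := exists_comm E
  refine le_of_inv E' M0 hle (fun t X hX => ?_) hcyc
  have h1 : E'.sg t X = E.sg (-t) X := by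
    change E'.U t * X * E'.U (-t) = E.U (-t) * X * E.U (-(-t))
    rw [U_comm E E', U_comm E E']
  rw [h1]
  exact hinv (-t) X hX

end Vale.Agent.P352.BW.H820
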