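import Vale.Agent.P352.BW.Spec2
import Vale.Agent.P352.BW.H820.Tk0

/-!
P352, project BW, blocks JC and TK (helper820)
-/

namespace Vale.Agent.P352.BW

variable {H : Type*} [NormedAddCommGroup H] [InnerProductSpace ℂ H] [CompleteSpace H]

/-- **Block JC.** -/
theorem H820.jc : JCStmt H := fun _ _ E Z hZ => H820.jconj_mem E Z hZ

/-- **Block TK** (Takesaki). -/
theorem tk : TKStmt H := fun _ M0 _ E hinv hcyc =>
  ⟨fun hle => H820.le_of_inv E M0 hle hinv hcyc, fun hle => H820.le_of_inv' E M0 hle hinv hcyc⟩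

end Vale.Agent.P352.BW
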